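import Vale.Agent.P050.CoDefs
import Vale.Agent.P050.SeiLoop

/-!
# P050: Sidorenko's inequality for every bipartite graph and all cograph hosts
-/

open Finset

namespace Vale.Agent.Results.P050.CographHosts

open Vale.Agent.P050

/-- (1) `t(H, G) ≥ p(G) ^ e(H)` for every bipartite graph `H` and every graph `G` without an
induced path on four vertices.
(2) The same for every finite graph `G` with arbitrary loops (a symmetric relation) whose simple
part has no induced path on four vertices.
(3) The same for every finite graph `G`, loops allowed, of the class `Host`: the smallest class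
that contains all totally positive graphs and is closed under disjoint unions, joins, tensor
products and isomorphisms.
(4) Weighted form: if `W` and `W'` are good hosts then so is the host obtained by putting them
side by side, with any masses, any scaling factors and any constant weight across.
(5) Tensor products of good hosts are good. (6) Totally positive kernels are good. -/
theorem result :
    (∀ (V : Type) [Fintype V] [Nonempty V] (G : SimpleGraph V) [DecidableRel G.Adj],
      IsEmpty (SimpleGraph.pathGraph 4 ↪g G) →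
      ∀ (U : Type) [Fintype U] [DecidableEq U] (H : SimpleGraph U) [DecidableRel H.Adj],
        H.Colorable 2 →
        (2 * (G.edgeFinset.card : ℝ) / (Fintype.card V : ℝ) ^ 2) ^ H.edgeFinset.card ≤
          (Nat.card (H →g G) : ℝ) / (Fintype.card V : ℝ) ^ Fintype.card U) ∧
    (∀ (V : Type) [Fintype V] [Nonempty V] (R : V → V → Prop), (∀ x y, R x y → R y x) →
      IsEmpty (SimpleGraph.pathGraph 4 ↪g SimpleGraph.fromRel R) →
      ∀ (U : Type) [Fintype U] [DecidableEq U] (H : SimpleGraph U) [DecidableRel H.Adj],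
        H.Colorable 2 →
        ((Nat.card {p : V × V // R p.1 p.2} : ℝ) / (Fintype.card V : ℝ) ^ 2) ^
            H.edgeFinset.card ≤
          (Nat.card {f : U → V // ∀ u v, H.Adj u v → R (f u) (f v)} : ℝ) /
            (Fintype.card V : ℝ) ^ Fintype.card U) ∧
    (∀ (V : Type) [Fintype V] (R : V → V → Prop), Host V R →
      ∀ (U : Type) [Fintype U] [DecidableEq U] (H : SimpleGraph U) [DecidableRel H.Adj],
        H.Colorable 2 →
        ((Nat.card {p : V × V // R p.1 p.2} : ℝ) / (Fintype.card V : ℝ) ^ 2) ^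
            H.edgeFinset.card ≤
          (Nat.card {f : U → V // ∀ u v, H.Adj u v → R (f u) (f v)} : ℝ) /
            (Fintype.card V : ℝ) ^ Fintype.card U) ∧
    (∀ (V V' : Type) [Fintype V] [Fintype V'] (μ : V → ℝ) (μ' : V' → ℝ)
      (W : Sym2 V → ℝ) (W' : Sym2 V' → ℝ) (t s c s' : ℝ),
      (∀ x, 0 ≤ μ x) → ∑ x, μ x = 1 → (∀ x, 0 ≤ μ' x) → ∑ x, μ' x = 1 →
      (∀ z, 0 ≤ W z) → (∀ z, 0 ≤ W' z) → 0 < t → t < 1 → 0 ≤ s → 0 ≤ c → 0 ≤ s' →
      Good μ W → Good μ' W' → Good (glueWt t μ μ') (glueKer s c s' W W')) ∧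
    (∀ (V V' : Type) [Fintype V] [Fintype V'] (μ : V → ℝ) (μ' : V' → ℝ)
      (W : Sym2 V → ℝ) (W' : Sym2 V' → ℝ),
      (∀ x, 0 ≤ μ x) → (∀ x, 0 ≤ μ' x) → (∀ z, 0 ≤ W z) → (∀ z, 0 ≤ W' z) →
      Good μ W → Good μ' W' → Good (fun x : V × V' => μ x.1 * μ' x.2)
        (fun z => W (z.map Prod.fst) * W' (z.map Prod.snd))) ∧
    (∀ (V : Type) [Fintype V] (μ : V → ℝ) (W : Sym2 V → ℝ),
      (∀ x, 0 < μ x) → ∑ x, μ x = 1 → (∀ z, 0 ≤ W z) → (∃ r c, TPOrders W r c) →
      Good μ W) := by
  refine ⟨?_, ?_, ?_, ?_, ?_, ?_⟩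
  · intro V _ _ G _ hG U _ _ H _ hH
    exact Clo.graph_of_host G (Clo.cograph_host (Sei.cograph_of_P4_free G hG)).1 H hH
  · intro V _ _ R hR hG U _ _ H _ hH
    exact Clo.host_count (Sei.host_of_P4_free hR hG) H hH
  · intro V _ R hR U _ _ H _ hH
    exact Clo.host_count hR H hH
  · intro V V' _ _ μ μ' W W' t s c s' hμ hμ1 hμ' hμ1' hW hW' ht ht1 hs hc hs' h h'
    exact Clo.good_glue ht ht1 hs hc hs' hμ hμ1 hμ' hμ1' hW hW' h h'
  · intro V V' _ _ μ μ' W W' hμ hμ' hW hW' h h'
    exact Clo.good_tensor hμ hμ' hW hW' h h'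
  · intro V _ μ W hμ hμ1 hW hT U _ _ H _ hH
    exact host_bip hμ hμ1 hW hT H hH

end Vale.Agent.Results.P050.CographHosts
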