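import Vale.Agent.P050.Defs
import Vale.Agent.P050.LatDefs
import Vale.Agent.P050.LatMain
import Vale.Agent.P050.SeiLoop
import Vale.Agent.P050.Four

/-!
# P050: hosts that satisfy the Sidorenko inequality for every bipartite graph
-/

open Finset

namespace Vale.Agent.Results.P050.LatticeHosts

open Vale.Agent.P050

/-- (1) The bipartite form on finite distributive lattices `X`, `Y`: a log-supermodular kernel `K`
on `X × Y` with log-supermodular masses `α`, `β` satisfies the Sidorenko inequality for every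
bipartite graph with sides `A`, `B` and edge set `E`.
(2) Every kernel `W` of the class `HostL` satisfies `t(H, W) ≥ t(K_2, W) ^ e(H)` for every
bipartite graph `H`. (3) So does every graph whose uniform kernel is in the class.
(4) So does every finite graph without an induced path on four vertices.
(5) So does every finite graph with arbitrary loops (a symmetric relation `R`) whose simple part
has no induced path on four vertices. (6) So does every finite graph with at most four vertices.
(7) So does every graph with arbitrary loops and at most three vertices. -/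
theorem result :
    (∀ (X Y : Type) [Fintype X] [Fintype Y] [DistribLattice X] [DistribLattice Y]
      (α : X → ℝ) (β : Y → ℝ) (K : X → Y → ℝ),
      (∀ x, 0 ≤ α x) → ∑ x, α x = 1 → (∀ y, 0 ≤ β y) → ∑ y, β y = 1 → (∀ x y, 0 ≤ K x y) →
      (∀ x x', α x * α x' ≤ α (x ⊓ x') * α (x ⊔ x')) →
      (∀ y y', β y * β y' ≤ β (y ⊓ y') * β (y ⊔ y')) →
      (∀ x x' y y', K x y * K x' y' ≤ K (x ⊓ x') (y ⊓ y') * K (x ⊔ x') (y ⊔ y')) →
      ∀ (A B : Type) [Fintype A] [Fintype B] [DecidableEq A] [DecidableEq B]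
        (E : Finset (A × B)),
        (∑ x, ∑ y, α x * β y * K x y) ^ E.card ≤
          ∑ x : A → X, ∑ y : B → Y, (∏ a, α (x a)) * (∏ b, β (y b)) *
            ∏ e ∈ E, K (x e.1) (y e.2)) ∧
    (∀ (V : Type) (i : Fintype V) (μ : V → ℝ) (W : Sym2 V → ℝ), HostL V i μ W →
      ∀ (U : Type) [Fintype U] [DecidableEq U] (H : SimpleGraph U) [DecidableRel H.Adj],
        H.Colorable 2 → edgeDens μ W ^ H.edgeFinset.card ≤ dens μ W H) ∧
    (∀ (V : Type) [Fintype V] [Nonempty V] (G : SimpleGraph V) [DecidableRel G.Adj],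
      HostL V inferInstance (fun _ => 1 / (Fintype.card V : ℝ)) (graphKernel G) →
      ∀ (U : Type) [Fintype U] [DecidableEq U] (H : SimpleGraph U) [DecidableRel H.Adj],
        H.Colorable 2 →
        (2 * (G.edgeFinset.card : ℝ) / (Fintype.card V : ℝ) ^ 2) ^ H.edgeFinset.card ≤
          (Nat.card (H →g G) : ℝ) / (Fintype.card V : ℝ) ^ Fintype.card U) ∧
    (∀ (V : Type) [Fintype V] [Nonempty V] (G : SimpleGraph V) [DecidableRel G.Adj],
      IsEmpty (SimpleGraph.pathGraph 4 ↪g G) →
      ∀ (U : Type) [Fintype U] [DecidableEq U] (H : SimpleGraph U) [DecidableRel H.Adj],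
        H.Colorable 2 →
        (2 * (G.edgeFinset.card : ℝ) / (Fintype.card V : ℝ) ^ 2) ^ H.edgeFinset.card ≤
          (Nat.card (H →g G) : ℝ) / (Fintype.card V : ℝ) ^ Fintype.card U) ∧
    (∀ (V : Type) [Fintype V] [Nonempty V] (R : V → V → Prop), (∀ x y, R x y → R y x) →
      IsEmpty (SimpleGraph.pathGraph 4 ↪g SimpleGraph.fromRel R) →
      ∀ (U : Type) [Fintype U] [DecidableEq U] (H : SimpleGraph U) [DecidableRel H.Adj],
        H.Colorable 2 →
        ((Nat.card {p : V × V // R p.1 p.2} : ℝ) / (Fintype.card V : ℝ) ^ 2) ^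
            H.edgeFinset.card ≤
          (Nat.card {f : U → V // ∀ u v, H.Adj u v → R (f u) (f v)} : ℝ) /
            (Fintype.card V : ℝ) ^ Fintype.card U) ∧
    (∀ (V : Type) [Fintype V] [Nonempty V] (G : SimpleGraph V) [DecidableRel G.Adj],
      Fintype.card V ≤ 4 →
      ∀ (U : Type) [Fintype U] [DecidableEq U] (H : SimpleGraph U) [DecidableRel H.Adj],
        H.Colorable 2 →
        (2 * (G.edgeFinset.card : ℝ) / (Fintype.card V : ℝ) ^ 2) ^ H.edgeFinset.card ≤
          (Nat.card (H →g G) : ℝ) / (Fintype.card V : ℝ) ^ Fintype.card U) ∧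
    (∀ (V : Type) [Fintype V] [Nonempty V] (R : V → V → Prop), (∀ x y, R x y → R y x) →
      Fintype.card V ≤ 3 →
      ∀ (U : Type) [Fintype U] [DecidableEq U] (H : SimpleGraph U) [DecidableRel H.Adj],
        H.Colorable 2 →
        ((Nat.card {p : V × V // R p.1 p.2} : ℝ) / (Fintype.card V : ℝ) ^ 2) ^
            H.edgeFinset.card ≤
          (Nat.card {f : U → V // ∀ u v, H.Adj u v → R (f u) (f v)} : ℝ) /
            (Fintype.card V : ℝ) ^ Fintype.card U) := by
  refine ⟨?_, ?_, ?_, ?_, ?_, ?_, ?_⟩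
  · intro X Y _ _ _ _ α β K hα hα1 hβ hβ1 hK sα sβ sK A B _ _ _ _ E
    exact LS.sid_lat hα hα1 sα hβ hβ1 sβ hK sK E
  · intro V i μ W h U _ _ H _ hH
    exact (hostL_good i h).2 U H hH
  · intro V _ _ G _ h U _ _ H _ hH
    exact graph_hostL G h U H hH
  · intro V _ _ G _ hG U _ _ H _ hH
    exact Clo.graph_of_host G (Clo.cograph_host (Sei.cograph_of_P4_free G hG)).1 H hH
  · intro V _ _ R hR hG U _ _ H _ hH
    exact Clo.host_count (Sei.host_of_P4_free hR hG) H hH
  · intro V _ _ G _ hV U _ _ H _ hH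
    exact Four.four G hV H hH
  · intro V _ _ R hR hV U _ _ H _ hH
    exact Four.three R hR hV H hH

end Vale.Agent.Results.P050.LatticeHosts
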