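import Vale.Agent.P050.Defs
import Vale.Agent.P050.ClassDefs
import Vale.Agent.P050.ClassMain
import Vale.Agent.P050.SeiLoop

/-!
# P050: hosts that satisfy the Sidorenko inequality for every bipartite graph
-/

open Finset

namespace Vale.Agent.Results.P050.SidorenkoHosts

open Vale.Agent.P050

/-- (1) Every kernel `W` of the class `HostK` satisfies `t(H, W) ≥ t(K_2, W) ^ e(H)` for every
bipartite graph `H`. (2) So does every graph whose uniform kernel is in the class.
(3) So does every finite graph without an induced path on four vertices.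
(4) So does every finite graph with arbitrary loops (a symmetric relation `R`) whose simple part
has no induced path on four vertices. -/
theorem result :
    (∀ (V : Type) (i : Fintype V) (μ : V → ℝ) (W : Sym2 V → ℝ), HostK V i μ W →
      ∀ (U : Type) [Fintype U] [DecidableEq U] (H : SimpleGraph U) [DecidableRel H.Adj],
        H.Colorable 2 → edgeDens μ W ^ H.edgeFinset.card ≤ dens μ W H) ∧
    (∀ (V : Type) [Fintype V] [Nonempty V] (G : SimpleGraph V) [DecidableRel G.Adj],
      HostK V inferInstance (fun _ => 1 / (Fintype.card V : ℝ)) (graphKernel G) →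
      ∀ (U : Type) [Fintype U] [DecidableEq U] (H : SimpleGraph U) [DecidableRel H.Adj],
        H.Colorable 2 →
        (2 * (G.edgeFinset.card : ℝ) / (Fintype.card V : ℝ) ^ 2) ^ H.edgeFinset.card ≤
          (Nat.card (H →g G) : ℝ) / (Fintype.card V : ℝ) ^ Fintype.card U) ∧
    (∀ (V : Type) [Fintype V] [Nonempty V] (G : SimpleGraph V) [DecidableRel G.Adj],
      IsEmpty (SimpleGraph.pathGraph 4 ↪g G) →
      ∀ (U : Type) [Fintype U] [DecidableEq U] (H : SimpleGraph U) [DecidableRel H.Adj],
        H.Colorable 2 →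
        (2 * (G.edgeFinset.card : ℝ) / (Fintype.card V : ℝ) ^ 2) ^ H.edgeFinset.card ≤
          (Nat.card (H →g G) : ℝ) / (Fintype.card V : ℝ) ^ Fintype.card U) ∧
    (∀ (V : Type) [Fintype V] [Nonempty V] (R : V → V → Prop), (∀ x y, R x y → R y x) →
      IsEmpty (SimpleGraph.pathGraph 4 ↪g SimpleGraph.fromRel R) →
      ∀ (U : Type) [Fintype U] [DecidableEq U] (H : SimpleGraph U) [DecidableRel H.Adj],
        H.Colorable 2 →
        ((Nat.card {p : V × V // R p.1 p.2} : ℝ) / (Fintype.card V : ℝ) ^ 2) ^
            H.edgeFinset.card ≤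
          (Nat.card {f : U → V // ∀ u v, H.Adj u v → R (f u) (f v)} : ℝ) /
            (Fintype.card V : ℝ) ^ Fintype.card U) := by
  refine ⟨?_, ?_, ?_, ?_⟩
  · intro V i μ W h U _ _ H _ hH
    exact (host_good i h).2 U H hH
  · intro V _ _ G _ h U _ _ H _ hH
    exact graph_host G h U H hH
  · intro V _ _ G _ hG U _ _ H _ hH
    exact Clo.graph_of_host G (Clo.cograph_host (Sei.cograph_of_P4_free G hG)).1 H hH
  · intro V _ _ R hR hG U _ _ H _ hH
    exact Clo.host_count (Sei.host_of_P4_free hR hG) H hH

end Vale.Agent.Results.P050.SidorenkoHosts
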